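import Vale.Agent.P129Z.Final
import Vale.Agent.P129Z.Faith
import Vale.Agent.P129Z.FO
import Vale.Agent.P129Z.NonVac

open Vale.Agent.P323.Z Vale.Agent.P129Z.S

namespace Vale.Agent.Results.P129.Independence

universe u

/-- The separable quotient problem is independent of ZFC.

(A) There is a model of ZFC in which some infinite-dimensional real Banach space and some
infinite-dimensional complex Banach space have no separable infinite-dimensional quotient.

(B) If there is a measurable cardinal, or just a cardinal `κ` with `κ → (ω)^{<ω}_2`, there is a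
model of ZFC in which every infinite-dimensional real or complex Banach space has a separable
infinite-dimensional quotient (and in which such spaces exist).

(C) In the universe of sets, `SQReal` and `SQComplex` are the usual statements.

(D) `SQReal` and `SQComplex` are expressed by sentences of the language of set theory. -/
theorem result :
    (∃ (M : Type) (E : M → M → Prop), IsZFCModel E ∧ ¬ SQReal E ∧ ¬ SQComplex E) ∧
    (∀ κ : Cardinal.{u}, IsMeasurableCardinal κ ∨ ErdosArrow κ →
      ∃ (M : Type) (E : M → M → Prop), IsZFCModel E ∧ SQReal E ∧ SQComplex E ∧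
        (∃ R K X, IsReals E R ∧ IsRealScalars E R K ∧ IsBanach E R K X ∧ ¬ FiniteDim E K X) ∧
        (∃ R K X, IsReals E R ∧ IsComplexScalars E R K ∧ IsBanach E R K X ∧ ¬ FiniteDim E K X)) ∧
    ((SQReal (fun x y : ZFSet.{u} => x ∈ (y : Set ZFSet.{u})) ↔
        ∀ (X : Type u) [NormedAddCommGroup X] [NormedSpace ℝ X] [CompleteSpace X],
          ¬ FiniteDimensional ℝ X → HasSeparableQuotient ℝ X) ∧
      (SQComplex (fun x y : ZFSet.{u} => x ∈ (y : Set ZFSet.{u})) ↔
        ∀ (X : Type u) [NormedAddCommGroup X] [NormedSpace ℂ X] [CompleteSpace X],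
          ¬ FiniteDimensional ℂ X → HasSeparableQuotient ℂ X)) ∧
    ((∃ φ : LSet.BoundedFormula Empty 0,
        ∀ (M : Type) (E : M → M → Prop), Sat E φ Fin.elim0 ↔ SQReal E) ∧
      (∃ φ : LSet.BoundedFormula Empty 0,
        ∀ (M : Type) (E : M → M → Prop), Sat E φ Fin.elim0 ↔ SQComplex E)) := by
  refine ⟨P129Z.exists_model_not_sq, fun κ h => ?_,
    ⟨P129Z.faithful_real, P129Z.faithful_complex⟩,
    P129Z.FO.exists_sentence_real, P129Z.FO.exists_sentence_complex⟩
  obtain ⟨N, _, hN⟩ := P129Z.exists_FS_of_large κ h
  exact ⟨N, P129Z.ZM.E, P129Z.isZFCModel N, P129Z.sqReal_of_FS hN, P129Z.sqComplex_of_FS hN,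
    P129Z.exists_infinite_dim_real N, P129Z.exists_infinite_dim_complex N⟩

end Vale.Agent.Results.P129.Independence
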